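import Vale.Agent.P122.H466.Mink

/-! # P122 / H466 : slopes, region, geometry of the nodes -/

open MeasureTheory Complex Set Vale.Agent.P122.C2
open scoped ENNReal NNReal FourierTransform RealInnerProductSpace

namespace Vale.Agent.P122.AN

theorem cap_kids {n i : ℕ} {τ τ' : Z2} (h : Cap n i τ) (h' : τ' ∈ kids n τ) : Cap n (i + 1) τ' := by
  intro k
  have hk := mem_kids.1 h' k
  obtain ⟨h1, h2⟩ := h k
  have h3 : (0:ℤ) < 2 ^ n := by positivity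
  have e : (2:ℤ) ^ ((i + 1) * n) = 2 ^ (i * n) * 2 ^ n := by rw [← pow_add]; congr 1; ring
  constructor
  · by_contra hlt
    push Not at hlt
    have := Int.ediv_neg_of_neg_of_pos hlt h3
    omega
  · rw [e]
    have := Int.lt_mul_of_ediv_lt h3 (show τ' k / 2 ^ n < 2 ^ (i * n) by rw [hk]; exact h2)
    linarith

theorem slp_slp {C : ℝ} (hC : 1 ≤ C) (n K : ℕ) : Slp C n K (slp n) := by
  constructor
  · intro i τ k _ hc
    obtain ⟨h1, h2⟩ := hc k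
    unfold slp
    have p : (0:ℝ) < 2 ^ (i * n) := by positivity
    have e1 : (0:ℝ) ≤ τ k := by exact_mod_cast h1
    have e2 : (τ k : ℝ) ≤ 2 ^ (i * n) := by exact_mod_cast h2.le
    rw [abs_of_nonneg (div_nonneg e1 p.le), div_le_one p]
    exact e2
  · intro i τ k _ _
    unfold slp par
    have h3 : (0:ℤ) < 2 ^ n := by positivity
    have a1 : 2 ^ n * (τ k / 2 ^ n) ≤ τ k := Int.mul_ediv_self_le h3.ne'
    have a2 : τ k < 2 ^ n * (τ k / 2 ^ n) + 2 ^ n := Int.lt_mul_ediv_self_add h3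
    have b1 : (2:ℝ) ^ n * ((τ k / 2 ^ n : ℤ) : ℝ) ≤ τ k := by exact_mod_cast a1
    have b2 : (τ k : ℝ) ≤ 2 ^ n * ((τ k / 2 ^ n : ℤ) : ℝ) + 2 ^ n := by exact_mod_cast a2.le
    have p : (0:ℝ) < 2 ^ (i * n) := by positivity
    have pn : (0:ℝ) < 2 ^ n := by positivity
    have e : (2:ℝ) ^ ((i + 1) * n) = 2 ^ n * 2 ^ (i * n) := by rw [← pow_add]; congr 1; ring
    have e2 : (τ k : ℝ) / 2 ^ ((i + 1) * n) - ((τ k / 2 ^ n : ℤ) : ℝ) / 2 ^ (i * n) =
        ((τ k : ℝ) - 2 ^ n * ((τ k / 2 ^ n : ℤ) : ℝ)) / 2 ^ n / 2 ^ (i * n) := by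
      rw [e]; field_simp
    rw [e2, abs_of_nonneg (div_nonneg (div_nonneg (by linarith) pn.le) p.le)]
    refine div_le_div_of_nonneg_right ?_ p.le
    rw [div_le_iff₀ pn]
    nlinarith
  · intro i τ τ' k _ _ _
    unfold slp
    have p : (0:ℝ) < 2 ^ (i * n) := by positivity
    rw [← sub_div, abs_div, abs_of_pos p]
    refine div_le_div_of_nonneg_right ?_ p.le
    have h0 := abs_nonneg ((τ 0 : ℝ) - τ' 0)
    have h1 := abs_nonneg ((τ 1 : ℝ) - τ' 1)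
    have hk : |(τ k : ℝ) - τ' k| ≤ |(τ 0 : ℝ) - τ' 0| + |(τ 1 : ℝ) - τ' 1| := by
      fin_cases k
      · simp only [Fin.zero_eta]; linarith
      · simp only [Fin.mk_one]; linarith
    nlinarith
  · intro i τ τ' _ _ _
    unfold slp
    have p : (0:ℝ) < 2 ^ (i * n) := by positivity
    rw [← sub_div, ← sub_div, abs_div, abs_div, abs_of_pos p]
    have e : (2:ℝ) ^ (i * n) * (|(τ 0 : ℝ) - τ' 0| / 2 ^ (i * n) + |(τ 1 : ℝ) - τ' 1| / 2 ^ (i * n)) =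
        |(τ 0 : ℝ) - τ' 0| + |(τ 1 : ℝ) - τ' 1| := by field_simp
    rw [e]
    have h0 := abs_nonneg ((τ 0 : ℝ) - τ' 0)
    have h1 := abs_nonneg ((τ 1 : ℝ) - τ' 1)
    nlinarith

/-- the region at the level `i` -/
def Rg (K n i : ℕ) (S : Nd) : Prop :=
  0 ≤ S.T ∧ S.T < 2 ^ (2 * (K - i) * n) ∧ ∀ k, |S.o k| ≤ (1 + 3 * i) * 2 ^ ((2 * K - i) * n)

theorem rg_ch {K n i : ℕ} (hi : i < K) {S : Nd} (hR : Rg K n i S) (hc : Cap n i S.τ) {τ' : Z2} (h' : τ' ∈ kids n S.τ) :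
    Rg K n (i + 1) ((S.sg n).ch (slp n) n i τ') := by
  obtain ⟨h1, h2, h3⟩ := hR
  have hc' := cap_kids hc h'
  have p4 : (0:ℤ) < 2 ^ (2 * n) := by positivity
  have hT : (S.sg n).T = S.T := rfl
  refine ⟨?_, ?_, ?_⟩
  · show 0 ≤ S.T / 2 ^ (2 * n)
    exact Int.ediv_nonneg h1 p4.le
  · show S.T / 2 ^ (2 * n) < 2 ^ (2 * (K - (i + 1)) * n)
    refine Int.ediv_lt_of_lt_mul p4 ?_
    rw [← pow_add]
    have e : 2 * (K - (i + 1)) * n + 2 * n = 2 * (K - i) * n := by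
      have : K - i = (K - (i + 1)) + 1 := by omega
      rw [this]; ring
    rw [e]; exact h2
  · intro k
    show |⌊((S.o k / 2 ^ n : ℤ) : ℝ) - ((S.T % 2 ^ (2 * n) : ℤ) : ℝ) * 2 ^ (2 * i * n) * slp n (i + 1) τ' k / 2 ^ ((i + 1) * n)⌋| ≤ _
    have pn : (0:ℤ) < 2 ^ n := by positivity
    -- bound of the offset
    have ho := abs_le.1 (h3 k)
    have e1 : (2:ℤ) ^ ((2 * K - i) * n) = 2 ^ n * 2 ^ ((2 * K - (i + 1)) * n) := by
      rw [← pow_add]; congr 1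
      have : 2 * K - i = (2 * K - (i + 1)) + 1 := by omega
      rw [this]; ring
    set P : ℤ := 2 ^ ((2 * K - (i + 1)) * n) with hP
    have hP1 : 1 ≤ P := one_le_pow₀ (by norm_num)
    have a1 : S.o k / 2 ^ n ≤ (1 + 3 * i) * P := by
      have : S.o k / 2 ^ n < (1 + 3 * i) * P + 1 := by
        refine Int.ediv_lt_of_lt_mul pn ?_
        rw [e1] at ho
        nlinarith [ho.2]
      linarith
    have a2 : -((1 + 3 * i) * P) ≤ S.o k / 2 ^ n := by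
      rw [Int.le_ediv_iff_mul_le pn]
      rw [e1] at ho
      nlinarith [ho.1]
    -- bound of the displacement
    have m1 : 0 ≤ S.T % 2 ^ (2 * n) := Int.emod_nonneg _ p4.ne'
    have m2 : S.T % 2 ^ (2 * n) < 2 ^ (2 * n) := Int.emod_lt_of_pos _ p4
    have s1 : 0 ≤ slp n (i + 1) τ' k := by
      unfold slp
      have : (0:ℝ) ≤ τ' k := by exact_mod_cast (hc' k).1
      positivity
    have s2 : slp n (i + 1) τ' k ≤ 1 := by
      unfold slp
      rw [div_le_one (by positivity)]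
      exact_mod_cast (hc' k).2.le
    have d1 : (0:ℝ) ≤ ((S.T % 2 ^ (2 * n) : ℤ) : ℝ) * 2 ^ (2 * i * n) * slp n (i + 1) τ' k / 2 ^ ((i + 1) * n) := by
      have : (0:ℝ) ≤ ((S.T % 2 ^ (2 * n) : ℤ) : ℝ) := by exact_mod_cast m1
      positivity
    have d2 : ((S.T % 2 ^ (2 * n) : ℤ) : ℝ) * 2 ^ (2 * i * n) * slp n (i + 1) τ' k / 2 ^ ((i + 1) * n) ≤ P := by
      have q1 : ((S.T % 2 ^ (2 * n) : ℤ) : ℝ) ≤ 2 ^ (2 * n) := by exact_mod_cast m2.le
      have q0 : (0:ℝ) ≤ ((S.T % 2 ^ (2 * n) : ℤ) : ℝ) := by exact_mod_cast m1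
      have q2 : ((S.T % 2 ^ (2 * n) : ℤ) : ℝ) * 2 ^ (2 * i * n) * slp n (i + 1) τ' k ≤ 2 ^ (2 * n) * 2 ^ (2 * i * n) * 1 := by
        gcongr
      have q3 : (2:ℝ) ^ (2 * n) * 2 ^ (2 * i * n) * 1 ≤ P * 2 ^ ((i + 1) * n) := by
        rw [hP]
        push_cast
        rw [mul_one, ← pow_add, ← pow_add]
        refine pow_le_pow_right₀ (by norm_num) ?_
        rw [← add_mul, ← add_mul]
        exact Nat.mul_le_mul_right n (by omega)
      rw [div_le_iff₀ (by positivity)]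
      linarith
    have b1 : ((S.o k / 2 ^ n : ℤ) : ℝ) ≤ (1 + 3 * i) * P := by exact_mod_cast a1
    have b2 : -((1 + 3 * (i:ℝ)) * P) ≤ ((S.o k / 2 ^ n : ℤ) : ℝ) := by exact_mod_cast a2
    have hP1' : (1:ℝ) ≤ P := by exact_mod_cast hP1
    rw [abs_le]
    constructor
    · rw [Int.le_floor]
      push_cast
      linarith
    · refine Int.cast_le (R := ℝ).1 ((Int.floor_le _).trans ?_)
      push_cast
      nlinarith

theorem rg_top {K n : ℕ} {S : Nd} (hR : Rg K n K S) : S.T = 0 ∧ ∀ k, |(S.o k : ℝ)| ≤ (1 + 3 * K) * 2 ^ (K * n) := by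
  obtain ⟨h1, h2, h3⟩ := hR
  rw [Nat.sub_self, Nat.mul_zero, Nat.zero_mul, pow_zero] at h2
  refine ⟨by omega, fun k => ?_⟩
  have := h3 k
  have e : 2 * K - K = K := by omega
  rw [e] at this
  exact_mod_cast this

end Vale.Agent.P122.AN
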