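import Vale.Agent.P122.AN.Defs

/-! # P122 / H466 : gauges and weights -/

open MeasureTheory Complex Set Vale.Agent.P122.C2
open scoped ENNReal NNReal FourierTransform

namespace Vale.Agent.P122.AN

theorem fw_add (θ : ℝ) (v w : Fin 2 → ℝ) : fw θ (fun i => v i + w i) = fw θ v + fw θ w := by
  unfold fw; ring

theorem fn_add (θ : ℝ) (v w : Fin 2 → ℝ) : fn θ (fun i => v i + w i) = fn θ v + fn θ w := by
  unfold fn; ring

theorem fw_sub (θ : ℝ) (v w : Fin 2 → ℝ) : fw θ (fun i => v i - w i) = fw θ v - fw θ w := by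
  unfold fw; ring

theorem fn_sub (θ : ℝ) (v w : Fin 2 → ℝ) : fn θ (fun i => v i - w i) = fn θ v - fn θ w := by
  unfold fn; ring

theorem abs_fw_le (θ : ℝ) (v : Fin 2 → ℝ) : |fw θ v| ≤ |v 0| + |v 1| := by
  unfold fw
  refine (abs_add_le _ _).trans (add_le_add ?_ ?_)
  · rw [abs_mul]
    exact mul_le_of_le_one_left (abs_nonneg _) (Real.abs_cos_le_one θ)
  · rw [abs_mul]
    exact mul_le_of_le_one_left (abs_nonneg _) (Real.abs_sin_le_one θ)

theorem abs_fn_le (θ : ℝ) (v : Fin 2 → ℝ) : |fn θ v| ≤ |v 0| + |v 1| := by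
  unfold fn
  refine (abs_add_le _ _).trans (add_le_add ?_ ?_)
  · rw [abs_mul, abs_neg]
    exact mul_le_of_le_one_left (abs_nonneg _) (Real.abs_sin_le_one θ)
  · rw [abs_mul]
    exact mul_le_of_le_one_left (abs_nonneg _) (Real.abs_cos_le_one θ)

/-- recovering the coordinates from the frame -/
theorem coord0 (θ : ℝ) (v : Fin 2 → ℝ) : v 0 = Real.cos θ * fw θ v - Real.sin θ * fn θ v := by
  have h := Real.sin_sq_add_cos_sq θ
  unfold fw fn
  linear_combination (-v 0) * h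

theorem coord1 (θ : ℝ) (v : Fin 2 → ℝ) : v 1 = Real.sin θ * fw θ v + Real.cos θ * fn θ v := by
  have h := Real.sin_sq_add_cos_sq θ
  unfold fw fn
  linear_combination (-v 1) * h

theorem abs_c0_le (θ : ℝ) (v : Fin 2 → ℝ) : |v 0| ≤ |fw θ v| + |fn θ v| := by
  rw [coord0 θ v]
  refine (abs_sub _ _).trans (add_le_add ?_ ?_)
  · rw [abs_mul]
    exact mul_le_of_le_one_left (abs_nonneg _) (Real.abs_cos_le_one θ)
  · rw [abs_mul]
    exact mul_le_of_le_one_left (abs_nonneg _) (Real.abs_sin_le_one θ)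

theorem abs_c1_le (θ : ℝ) (v : Fin 2 → ℝ) : |v 1| ≤ |fw θ v| + |fn θ v| := by
  rw [coord1 θ v]
  refine (abs_add_le _ _).trans (add_le_add ?_ ?_)
  · rw [abs_mul]
    exact mul_le_of_le_one_left (abs_nonneg _) (Real.abs_sin_le_one θ)
  · rw [abs_mul]
    exact mul_le_of_le_one_left (abs_nonneg _) (Real.abs_cos_le_one θ)

/-- change of frame -/
theorem fw_chg (θ θ' : ℝ) (v : Fin 2 → ℝ) : |fw θ v| ≤ |fw θ' v| + |fn θ' v| := by
  have e : fw θ v = Real.cos (θ - θ') * fw θ' v + Real.sin (θ - θ') * fn θ' v := by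
    have h := Real.sin_sq_add_cos_sq θ'
    unfold fw fn
    rw [Real.cos_sub, Real.sin_sub]
    linear_combination (-(Real.cos θ * v 0) - Real.sin θ * v 1) * h
  rw [e]
  refine (abs_add_le _ _).trans (add_le_add ?_ ?_)
  · rw [abs_mul]
    exact mul_le_of_le_one_left (abs_nonneg _) (Real.abs_cos_le_one _)
  · rw [abs_mul]
    exact mul_le_of_le_one_left (abs_nonneg _) (Real.abs_sin_le_one _)

theorem fn_chg (θ θ' : ℝ) (v : Fin 2 → ℝ) : |fn θ v| ≤ |fw θ' v| + |fn θ' v| := by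
  have e : fn θ v = -Real.sin (θ - θ') * fw θ' v + Real.cos (θ - θ') * fn θ' v := by
    have h := Real.sin_sq_add_cos_sq θ'
    unfold fw fn
    rw [Real.cos_sub, Real.sin_sub]
    linear_combination (Real.sin θ * v 0 - Real.cos θ * v 1) * h
  rw [e]
  refine (abs_add_le _ _).trans (add_le_add ?_ ?_)
  · rw [abs_mul, abs_neg]
    exact mul_le_of_le_one_left (abs_nonneg _) (Real.abs_sin_le_one _)
  · rw [abs_mul]
    exact mul_le_of_le_one_left (abs_nonneg _) (Real.abs_cos_le_one _)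

theorem dv_add (s : Fin 2 → ℝ) (z w : E3) : dv s (z + w) = fun i => dv s z i + dv s w i := by
  funext i
  fin_cases i <;> simp [dv] <;> ring

theorem dv_neg (s : Fin 2 → ℝ) (z : E3) : dv s (-z) = fun i => -dv s z i := by
  funext i
  fin_cases i <;> simp [dv] <;> ring

section
variable {θ ρ1 ρ2 ρ3 : ℝ} {s : Fin 2 → ℝ}

theorem gau_nonneg (h1 : 0 < ρ1) (h2 : 0 < ρ2) (h3 : 0 < ρ3) (z : E3) : 0 ≤ gau θ ρ1 ρ2 ρ3 s z := by
  unfold gau; positivity

theorem gau_add (h1 : 0 < ρ1) (h2 : 0 < ρ2) (h3 : 0 < ρ3) (z w : E3) :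
    gau θ ρ1 ρ2 ρ3 s (z + w) ≤ gau θ ρ1 ρ2 ρ3 s z + gau θ ρ1 ρ2 ρ3 s w := by
  unfold gau
  rw [dv_add, fw_add, fn_add]
  have e1 : |fw θ (dv s z) + fw θ (dv s w)| / ρ1 ≤ |fw θ (dv s z)| / ρ1 + |fw θ (dv s w)| / ρ1 := by
    rw [← add_div]; exact div_le_div_of_nonneg_right (abs_add_le _ _) h1.le
  have e2 : |fn θ (dv s z) + fn θ (dv s w)| / ρ2 ≤ |fn θ (dv s z)| / ρ2 + |fn θ (dv s w)| / ρ2 := by
    rw [← add_div]; exact div_le_div_of_nonneg_right (abs_add_le _ _) h2.le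
  have e3 : |(z + w) 2| / ρ3 ≤ |z 2| / ρ3 + |w 2| / ρ3 := by
    rw [← add_div]; exact div_le_div_of_nonneg_right (abs_add_le _ _) h3.le
  linarith

theorem gau_neg (z : E3) : gau θ ρ1 ρ2 ρ3 s (-z) = gau θ ρ1 ρ2 ρ3 s z := by
  unfold gau
  rw [dv_neg]
  have e1 : fw θ (fun i => -dv s z i) = -fw θ (dv s z) := by unfold fw; ring
  have e2 : fn θ (fun i => -dv s z i) = -fn θ (dv s z) := by unfold fn; ring
  have e3 : (-z) 2 = -(z 2) := rfl
  rw [e1, e2, e3, abs_neg, abs_neg, abs_neg]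

theorem gau_sub_comm (z w : E3) : gau θ ρ1 ρ2 ρ3 s (z - w) = gau θ ρ1 ρ2 ρ3 s (w - z) := by
  rw [← gau_neg (z - w), neg_sub]

/-- Peetre -/
theorem peetre (h1 : 0 < ρ1) (h2 : 0 < ρ2) (h3 : 0 < ρ3) (x y b : E3) :
    1 + gau θ ρ1 ρ2 ρ3 s (y - b) ≤ (1 + gau θ ρ1 ρ2 ρ3 s (x - b)) * (1 + gau θ ρ1 ρ2 ρ3 s (x - y)) := by
  have e : gau θ ρ1 ρ2 ρ3 s (y - b) ≤ gau θ ρ1 ρ2 ρ3 s (y - x) + gau θ ρ1 ρ2 ρ3 s (x - b) := by
    have := gau_add (θ := θ) (s := s) h1 h2 h3 (y - x) (x - b)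
    rwa [sub_add_sub_cancel] at this
  rw [gau_sub_comm y x] at e
  have a := gau_nonneg (θ := θ) (s := s) h1 h2 h3 (x - b)
  have b' := gau_nonneg (θ := θ) (s := s) h1 h2 h3 (x - y)
  nlinarith [mul_nonneg a b']

theorem continuous_gau : Continuous (gau θ ρ1 ρ2 ρ3 s) := by
  have h : ∀ i : Fin 3, Continuous fun z : E3 => z i := fun i => by fun_prop
  unfold gau fw fn dv
  simp only [Matrix.cons_val_zero, Matrix.cons_val_one]
  fun_prop

theorem measurable_wg (M : ℕ) : Measurable (wg M θ ρ1 ρ2 ρ3 s) := by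
  unfold wg
  have h : Measurable (gau θ ρ1 ρ2 ρ3 s) := continuous_gau.measurable
  fun_prop

theorem wg_le_one (h1 : 0 < ρ1) (h2 : 0 < ρ2) (h3 : 0 < ρ3) (M : ℕ) (z : E3) : wg M θ ρ1 ρ2 ρ3 s z ≤ 1 := by
  unfold wg
  rw [← ENNReal.ofReal_one]
  refine ENNReal.ofReal_le_ofReal (inv_le_one_of_one_le₀ (one_le_pow₀ ?_))
  linarith [gau_nonneg (θ := θ) (s := s) h1 h2 h3 z]

theorem wg_anti (h1 : 0 < ρ1) (h2 : 0 < ρ2) (h3 : 0 < ρ3) {M M' : ℕ} (h : M ≤ M') (z : E3) :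
    wg M' θ ρ1 ρ2 ρ3 s z ≤ wg M θ ρ1 ρ2 ρ3 s z := by
  unfold wg
  have hg := gau_nonneg (θ := θ) (s := s) h1 h2 h3 z
  refine ENNReal.ofReal_le_ofReal (inv_anti₀ (by positivity) (pow_le_pow_right₀ (by linarith) h))

end

theorem stWG : StWG := by
  intro c hc
  refine ⟨4 * c + 4, by linarith, ?_⟩
  intro θ θ' ρ1 ρ2 ρ3 R1 R2 R3 s s' h1 h2 h3 hR h33 hs1 hs2 z
  have hR1 : 0 < R1 := by rcases hR with ⟨_, h, _⟩ | ⟨⟨h, _⟩, _⟩ <;> linarith
  have hR2 : 0 < R2 := by rcases hR with ⟨_, _, h⟩ | ⟨⟨_, h⟩, _⟩ <;> linarith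
  have hR3 : 0 < R3 := by linarith
  have ez : dv s z = fun i => dv s' z i - z 2 * (s i - s' i) := by
    funext i
    fin_cases i <;> simp [dv] <;> ring
  have ew : fw θ (dv s z) = fw θ (dv s' z) - z 2 * fw θ (fun i => s i - s' i) := by
    rw [ez]; unfold fw; ring
  have en : fn θ (dv s z) = fn θ (dv s' z) - z 2 * fn θ (fun i => s i - s' i) := by
    rw [ez]; unfold fn; ring
  have a1 : |z 2| * |fw θ (fun i => s i - s' i)| / R1 ≤ c * (|z 2| / ρ3) := by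
    rw [div_le_iff₀ hR1]
    have : |fw θ (fun i => s i - s' i)| ≤ c * R1 / ρ3 := by rw [le_div_iff₀ h3]; exact hs1
    calc |z 2| * |fw θ (fun i => s i - s' i)| ≤ |z 2| * (c * R1 / ρ3) := mul_le_mul_of_nonneg_left this (abs_nonneg _)
      _ = c * (|z 2| / ρ3) * R1 := by ring
  have a2 : |z 2| * |fn θ (fun i => s i - s' i)| / R2 ≤ c * (|z 2| / ρ3) := by
    rw [div_le_iff₀ hR2]
    have : |fn θ (fun i => s i - s' i)| ≤ c * R2 / ρ3 := by rw [le_div_iff₀ h3]; exact hs2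
    calc |z 2| * |fn θ (fun i => s i - s' i)| ≤ |z 2| * (c * R2 / ρ3) := mul_le_mul_of_nonneg_left this (abs_nonneg _)
      _ = c * (|z 2| / ρ3) * R2 := by ring
  have a3 : |z 2| / R3 ≤ |z 2| / ρ3 := div_le_div_of_nonneg_left (abs_nonneg _) h3 h33
  have b1 : |fw θ (dv s z)| / R1 ≤ |fw θ (dv s' z)| / R1 + |z 2| * |fw θ (fun i => s i - s' i)| / R1 := by
    rw [← add_div, ew, ← abs_mul]
    exact div_le_div_of_nonneg_right (abs_sub _ _) hR1.le
  have b2 : |fn θ (dv s z)| / R2 ≤ |fn θ (dv s' z)| / R2 + |z 2| * |fn θ (fun i => s i - s' i)| / R2 := by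
    rw [← add_div, en, ← abs_mul]
    exact div_le_div_of_nonneg_right (abs_sub _ _) hR2.le
  have c12 : |fw θ (dv s' z)| / R1 ≤ |fw θ' (dv s' z)| / ρ1 + |fn θ' (dv s' z)| / ρ2 ∧
      |fn θ (dv s' z)| / R2 ≤ |fw θ' (dv s' z)| / ρ1 + |fn θ' (dv s' z)| / ρ2 := by
    rcases hR with ⟨rfl, ha, hb⟩ | ⟨⟨ha, hb⟩, ha', hb'⟩
    · constructor
      · have := div_le_div_of_nonneg_left (abs_nonneg (fw θ' (dv s' z))) h1 ha
        have h4 : 0 ≤ |fn θ' (dv s' z)| / ρ2 := by positivity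
        linarith
      · have := div_le_div_of_nonneg_left (abs_nonneg (fn θ' (dv s' z))) h2 hb
        have h4 : 0 ≤ |fw θ' (dv s' z)| / ρ1 := by positivity
        linarith
    · constructor
      · have e1 := div_le_div_of_nonneg_left (abs_nonneg (fw θ' (dv s' z))) h1 ha
        have e2 := div_le_div_of_nonneg_left (abs_nonneg (fn θ' (dv s' z))) h2 ha'
        have e3 := div_le_div_of_nonneg_right (fw_chg θ θ' (dv s' z)) hR1.le
        rw [add_div] at e3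
        linarith
      · have e1 := div_le_div_of_nonneg_left (abs_nonneg (fw θ' (dv s' z))) h1 hb
        have e2 := div_le_div_of_nonneg_left (abs_nonneg (fn θ' (dv s' z))) h2 hb'
        have e3 := div_le_div_of_nonneg_right (fn_chg θ θ' (dv s' z)) hR2.le
        rw [add_div] at e3
        linarith
  have p1 : 0 ≤ |fw θ' (dv s' z)| / ρ1 := by positivity
  have p2 : 0 ≤ |fn θ' (dv s' z)| / ρ2 := by positivity
  have p3 : 0 ≤ |z 2| / ρ3 := by positivity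
  unfold gau
  nlinarith [c12.1, c12.2, mul_nonneg (by linarith : (0:ℝ) ≤ c) p1, mul_nonneg (by linarith : (0:ℝ) ≤ c) p2, mul_nonneg (by linarith : (0:ℝ) ≤ c) p3]

end Vale.Agent.P122.AN
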