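import Vale.Agent.P122.H466.Pie

/-! # P122 / H466 : the Fourier support of a cap is in the dual box; local constancy of the pieces -/

open MeasureTheory Complex Set Vale.Agent.P122.C2
open scoped ENNReal NNReal FourierTransform RealInnerProductSpace

namespace Vale.Agent.P122.AN

/-- size of the dual boxes -/
noncomputable def cD (C : ℝ) : ℝ := 2 * C + C * (2 * C * (C + 1)) ^ 2 + 2 * (C + 1) * (2 * C * (C + 1)) + 2 * C * (C + 1)

theorem hz_sub (ξ η : E3) : hz (ξ - η) = fun i => hz ξ i - hz η i := by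
  funext i
  fin_cases i <;> simp [hz]

theorem hz0 (ξ : E3) : hz ξ 0 = ξ 0 := rfl
theorem hz1 (ξ : E3) : hz ξ 1 = ξ 1 := rfl

section

variable {C : ℝ} {K n : ℕ} {Q : Set (Fin 2 → ℝ)} {h : (Fin 2 → ℝ) → ℝ} {v : (Fin 2 → ℝ) → Fin 2 → ℝ} {g : Z2 → E3 → ℂ}

theorem pw2 (n i : ℕ) : (2:ℝ) ^ (2 * i * n) = (2 ^ (i * n)) ^ 2 := by
  rw [← pow_mul]; congr 1; ring

theorem pw4 (n i : ℕ) : (2:ℝ) ^ (4 * i * n) = 2 ^ (i * n) * 2 ^ (i * n) * 2 ^ (2 * i * n) := by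
  rw [← pow_add, ← pow_add]; congr 1; ring

/-- two points of (neighbouring) caps: horizontal distance -/
theorem hdist (hS : Srf C Q h v) (hC : 1 ≤ C) {ρ b : ℝ} {s : Fin 2 → ℝ} {ξ η : E3} (h1 : hz ξ ∈ Q) (h2 : hz η ∈ Q)
    (h3 : ∀ k, |v (hz ξ) k - s k| ≤ b / ρ) (h4 : ∀ k, |v (hz η) k - s k| ≤ b / ρ) :
    ‖hz ξ - hz η‖ ≤ 2 * C * b / ρ := by
  have h5 : ‖v (hz ξ) - v (hz η)‖ ≤ 2 * b / ρ := by
    have hb : 0 ≤ 2 * b / ρ := by
      have := (abs_nonneg _).trans (h3 0)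
      have e : 2 * b / ρ = 2 * (b / ρ) := by ring
      rw [e]; linarith
    rw [pi_norm_le_iff_of_nonneg hb]
    intro k
    rw [Pi.sub_apply, Real.norm_eq_abs]
    have e : v (hz ξ) k - v (hz η) k = (v (hz ξ) k - s k) - (v (hz η) k - s k) := by ring
    rw [e]
    refine (abs_sub _ _).trans ?_
    have e2 : 2 * b / ρ = b / ρ + b / ρ := by ring
    rw [e2]
    exact add_le_add (h3 k) (h4 k)
  refine (hS.lo _ h1 _ h2).trans ?_
  calc C * ‖v (hz ξ) - v (hz η)‖ ≤ C * (2 * b / ρ) := mul_le_mul_of_nonneg_left h5 (by linarith)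
    _ = 2 * C * b / ρ := by ring

theorem abs_le_norm (w : Fin 2 → ℝ) (k : Fin 2) : |w k| ≤ ‖w‖ := by
  rw [← Real.norm_eq_abs]; exact norm_le_pi_norm w k

/-- the support of the cap `τ` is in the dual box of its tube -/
theorem dual_gs (hS : Srf C Q h v) (hD : Dat C K n Q h v g) (hC : 1 ≤ C) {i : ℕ} (hi : i ≤ K) {τ : Z2} {ξ η : E3}
    (hξ : gs K n g i τ ξ ≠ 0) (hη : gs K n g i τ η ≠ 0) :
    Dual (cD C) 0 (2 ^ (i * n)) (2 ^ (i * n)) (2 ^ (2 * i * n)) (slp n i τ) (ξ - η) := by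
  obtain ⟨a1, a2, a3⟩ := gs_supp hD hi (by linarith) hξ
  obtain ⟨b1, b2, b3⟩ := gs_supp hD hi (by linarith) hη
  set ρ : ℝ := 2 ^ (i * n) with hρd
  have hρ : 0 < ρ := by positivity
  have hρ1 : 1 ≤ ρ := one_le_pow₀ (by norm_num)
  have hd := hdist hS hC a1 b1 a2 b2
  have hd0 := (abs_le_norm _ 0).trans hd
  have hd1 := (abs_le_norm _ 1).trans hd
  rw [Pi.sub_apply] at hd0 hd1
  have eD : 2 * C * (C + 1) / ρ ≤ cD C / ρ := by
    refine div_le_div_of_nonneg_right ?_ hρ.le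
    unfold cD
    have : 0 ≤ 2 * C + C * (2 * C * (C + 1)) ^ 2 + 2 * (C + 1) * (2 * C * (C + 1)) := by positivity
    linarith
  refine ⟨?_, ?_, ?_⟩
  · unfold fw
    rw [hz_sub, Real.cos_zero, Real.sin_zero, one_mul, zero_mul, add_zero]
    exact hd0.trans eD
  · unfold fn
    rw [hz_sub, Real.cos_zero, Real.sin_zero, one_mul, neg_zero, zero_mul, zero_add]
    exact hd1.trans eD
  · rw [pw2, ← hρd]
    rw [pw2, ← hρd] at a3 b3
    have e0 : (ξ - η) 0 = hz ξ 0 - hz η 0 := rfl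
    have e1 : (ξ - η) 1 = hz ξ 1 - hz η 1 := rfl
    have e2 : (ξ - η) 2 = ξ 2 - η 2 := rfl
    rw [e0, e1, e2]
    have t := hS.tay _ a1 _ b1
    have t' : |h (hz ξ) - h (hz η) + v (hz η) 0 * (hz ξ 0 - hz η 0) + v (hz η) 1 * (hz ξ 1 - hz η 1)| ≤
        C * (2 * C * (C + 1) / ρ) ^ 2 := t.trans (mul_le_mul_of_nonneg_left (pow_le_pow_left₀ (norm_nonneg _) hd 2) (by linarith))
    have m0 : |(slp n i τ 0 - v (hz η) 0) * (hz ξ 0 - hz η 0)| ≤ (C + 1) / ρ * (2 * C * (C + 1) / ρ) := by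
      rw [abs_mul, abs_sub_comm]
      exact mul_le_mul (b2 0) hd0 (abs_nonneg _) (by positivity)
    have m1 : |(slp n i τ 1 - v (hz η) 1) * (hz ξ 1 - hz η 1)| ≤ (C + 1) / ρ * (2 * C * (C + 1) / ρ) := by
      rw [abs_mul, abs_sub_comm]
      exact mul_le_mul (b2 1) hd1 (abs_nonneg _) (by positivity)
    have e : ξ 2 - η 2 + slp n i τ 0 * (hz ξ 0 - hz η 0) + slp n i τ 1 * (hz ξ 1 - hz η 1) =
      (ξ 2 - h (hz ξ)) - (η 2 - h (hz η)) +
      (h (hz ξ) - h (hz η) + v (hz η) 0 * (hz ξ 0 - hz η 0) + v (hz η) 1 * (hz ξ 1 - hz η 1)) +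
      (slp n i τ 0 - v (hz η) 0) * (hz ξ 0 - hz η 0) + (slp n i τ 1 - v (hz η) 1) * (hz ξ 1 - hz η 1) := by ring
    rw [e]
    have k1 := abs_le.1 a3
    have k2 := abs_le.1 b3
    have k3 := abs_le.1 t'
    have k4 := abs_le.1 m0
    have k5 := abs_le.1 m1
    have ec : cD C / ρ ^ 2 = C / ρ ^ 2 + C / ρ ^ 2 + C * (2 * C * (C + 1) / ρ) ^ 2 +
        (C + 1) / ρ * (2 * C * (C + 1) / ρ) + (C + 1) / ρ * (2 * C * (C + 1) / ρ) + 2 * C * (C + 1) / ρ ^ 2 := by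
      unfold cD
      field_simp
      ring
    have hpos : 0 ≤ 2 * C * (C + 1) / ρ ^ 2 := by positivity
    rw [ec, abs_le]
    constructor
    · linarith [k1.1, k2.2, k3.1, k4.1, k5.1]
    · linarith [k1.2, k2.1, k3.2, k4.2, k5.2]

end

/-- local constancy with respect to a node -/
def PT (K M : ℕ) (C0 C : ℝ) : Prop := ∀ (n : ℕ) (Q : Set (Fin 2 → ℝ)) (h : (Fin 2 → ℝ) → ℝ)
  (v : (Fin 2 → ℝ) → Fin 2 → ℝ) (g : Z2 → E3 → ℂ), Srf C0 Q h v → Dat C0 K n Q h v g → ∀ i ≤ K, ∀ (S : Nd) (z : E3),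
    ‖pie K n g i S.τ z‖ₑ ^ 2 ≤
      ENNReal.ofReal (C * (1 + gau 0 (2 ^ (i * n)) (2 ^ (i * n)) (2 ^ (2 * i * n)) (slp n i S.τ) (z - bp n i S)) ^ M) *
        am2 M n i S (pie K n g i S.τ)

theorem pt_of_rep (hR : StREP) (K M : ℕ) {C0 : ℝ} (hC : 1 ≤ C0) : ∃ C : ℝ, 0 ≤ C ∧ PT K M C0 C := by
  obtain ⟨C, hC', H⟩ := hR M (cD C0) (by unfold cD; positivity)
  refine ⟨C, hC', ?_⟩
  intro n Q h v g hS hD i hi S z
  set ρ : ℝ := 2 ^ (i * n) with hρd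
  have hρ : 0 < ρ := by positivity
  have hρ3 : (0:ℝ) < 2 ^ (2 * i * n) := by positivity
  by_cases hex : ∃ η, gs K n g i S.τ η ≠ 0
  swap
  · push Not at hex
    have : pie K n g i S.τ z = 0 := by
      rw [← inv_gs hD.int]
      have : gs K n g i S.τ = fun _ => 0 := funext hex
      rw [this, Real.fourierInv_eq]
      simp
    rw [this]
    simp
  obtain ⟨η, hη⟩ := hex
  have h1 := H 0 ρ ρ (2 ^ (2 * i * n)) (slp n i S.τ) η (gs K n g i S.τ) hρ hρ hρ3 (integrable_gs hD.int i S.τ)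
    (fun ξ hξ => dual_gs hS hD hC hi hξ hη) z
  rw [inv_gs hD.int] at h1
  refine h1.trans ?_
  unfold am2
  set G := 1 + gau 0 ρ ρ (2 ^ (2 * i * n)) (slp n i S.τ) (z - bp n i S) with hG
  have hG0 : 1 ≤ G := by
    have := gau_nonneg (θ := 0) (s := slp n i S.τ) hρ hρ hρ3 (z - bp n i S)
    linarith
  have h2 : ∀ y, wg M 0 ρ ρ (2 ^ (2 * i * n)) (slp n i S.τ) (z - y) ≤ ENNReal.ofReal (G ^ M) * wN M n i S y := by
    intro y
    unfold wN wg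
    rw [← ENNReal.ofReal_mul (by positivity)]
    refine ENNReal.ofReal_le_ofReal ?_
    have p := peetre (θ := 0) (s := slp n i S.τ) hρ hρ hρ3 z y (bp n i S)
    have g1 := gau_nonneg (θ := 0) (s := slp n i S.τ) hρ hρ hρ3 (z - y)
    have g2 := gau_nonneg (θ := 0) (s := slp n i S.τ) hρ hρ hρ3 (y - bp n i S)
    rw [← hG] at p
    rw [← div_eq_mul_inv, le_div_iff₀ (by positivity), inv_mul_le_iff₀ (by positivity), ← mul_pow]
    refine pow_le_pow_left₀ (by linarith) ?_ M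
    linarith [p, mul_comm G (1 + gau 0 ρ ρ (2 ^ (2 * i * n)) (slp n i S.τ) (z - y))]
  calc ENNReal.ofReal (C * (ρ * ρ * 2 ^ (2 * i * n))⁻¹) *
        ∫⁻ y, ‖pie K n g i S.τ y‖ₑ ^ 2 * wg M 0 ρ ρ (2 ^ (2 * i * n)) (slp n i S.τ) (z - y)
      ≤ ENNReal.ofReal (C * (ρ * ρ * 2 ^ (2 * i * n))⁻¹) *
        ∫⁻ y, ENNReal.ofReal (G ^ M) * (‖pie K n g i S.τ y‖ₑ ^ 2 * wN M n i S y) := by
        refine mul_le_mul_right (lintegral_mono fun y => ?_) _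
        rw [mul_left_comm]
        exact mul_le_mul_right (h2 y) _
    _ = ENNReal.ofReal (C * G ^ M) * (ENNReal.ofReal ((2 ^ (4 * i * n))⁻¹) * ∫⁻ z, ‖pie K n g i S.τ z‖ₑ ^ 2 * wN M n i S z) := by
        rw [lintegral_const_mul']
        · rw [pw4, ← hρd, ENNReal.ofReal_mul hC', ENNReal.ofReal_mul hC']
          ring
        · exact ENNReal.ofReal_ne_top

end Vale.Agent.P122.AN
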