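import Vale.Agent.P122.H466.Nodes

/-! # P122 / H466 : the multiscale amplitudes of a function: `StAMP` -/

open MeasureTheory Complex Set Vale.Agent.P122.C2
open scoped ENNReal NNReal FourierTransform RealInnerProductSpace

namespace Vale.Agent.P122.AN

/-- exponent of the weights of level `i` -/
def ex (K M i : ℕ) : ℕ := M + 8 * (K - i)

/-- [L] for one child -/
def LemL (K M : ℕ) (C0 C : ℝ) : Prop := ∀ (n : ℕ) (Q : Set (Fin 2 → ℝ)) (h : (Fin 2 → ℝ) → ℝ)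
  (v : (Fin 2 → ℝ) → Fin 2 → ℝ) (g : Z2 → E3 → ℂ), Srf C0 Q h v → Dat C0 K n Q h v g → ∀ i < K, ∀ (S : Nd) (τ' : Z2),
    Cap n i S.τ → τ' ∈ kids n S.τ →
    am2 (ex K M i) n i S (pie K n g (i + 1) τ') ≤
      ENNReal.ofReal C * am2 (ex K M (i + 1)) n (i + 1) ((S.sg n).ch (slp n) n i τ') (pie K n g (i + 1) τ')

/-- [B1] -/
def LemB1 (K M : ℕ) (C0 C : ℝ) : Prop := ∀ (n : ℕ) (Q : Set (Fin 2 → ℝ)) (h : (Fin 2 → ℝ) → ℝ)
  (v : (Fin 2 → ℝ) → Fin 2 → ℝ) (g : Z2 → E3 → ℂ), Srf C0 Q h v → Dat C0 K n Q h v g → ∀ i < K, ∀ (σ : Nd) (G : Finset Z2),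
    Cap n i σ.τ → G ⊆ kids n σ.τ → ∀ U : Finset Nd, (∀ S ∈ U, S.sg n = σ) →
    ∑ S ∈ U, am2 (ex K M i) n i S (fun z => ∑ τ' ∈ G, pie K n g (i + 1) τ' z) ≤
      ENNReal.ofReal (C * 2 ^ (2 * n)) * ∑ τ' ∈ G, am2 (ex K M (i + 1)) n (i + 1) (σ.ch (slp n) n i τ') (pie K n g (i + 1) τ')

/-- [B2] -/
def LemB2 (K M : ℕ) (C0 C : ℝ) : Prop := ∀ (n : ℕ) (Q : Set (Fin 2 → ℝ)) (h : (Fin 2 → ℝ) → ℝ)
  (v : (Fin 2 → ℝ) → Fin 2 → ℝ) (g : Z2 → E3 → ℂ), Srf C0 Q h v → Dat C0 K n Q h v g → ∀ (i : ℕ) (τ : Z2) (θ : ℝ), 1 ≤ i → i < K →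
    Cap n i τ → ∃ ψ : Fin 2 → ℝ, |ψ 0| ≤ C ∧ |ψ 1| ≤ C ∧
    (∀ τ' ∈ kids n τ, ∀ τ'' ∈ kids n τ, |(τ' 0 : ℝ) - τ'' 0| + |(τ' 1 : ℝ) - τ'' 1| ≤
      C * (|ψ 0 * (τ' 0 - τ'' 0) + ψ 1 * (τ' 1 - τ'' 1)| + 2 ^ ((i + 1) * n) * |fn θ (slp n (i + 1) τ') - fn θ (slp n (i + 1) τ'')| + 1)) ∧
    ∀ (σ : Nd) (G : Finset Z2) (k : ℕ), σ.τ = τ → G ⊆ kids n τ →
      (∀ r : ℝ, (G.filter fun τ' => |ψ 0 * τ' 0 + ψ 1 * τ' 1 - r| ≤ 1).card ≤ k) →
      ∀ (U : Finset Nd) (r : ℝ), (∀ S ∈ U, S.sg n = σ ∧ |fn θ (fun j => (S.o j : ℝ)) - r| ≤ 1) →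
        ∑ S ∈ U, am2 (ex K M i) n i S (fun z => ∑ τ' ∈ G, pie K n g (i + 1) τ' z) ≤
          ENNReal.ofReal (C * 2 ^ n * k) * ∑ τ' ∈ G, am2 (ex K M (i + 1)) n (i + 1) (σ.ch (slp n) n i τ') (pie K n g (i + 1) τ')

open Classical in
/-- amplitude of the piece of the cap -/
noncomputable def aR (K M n : ℕ) (g : Z2 → E3 → ℂ) (i : ℕ) (S : Nd) : ℝ :=
  if Rg K n i S ∧ Cap n i S.τ then Real.sqrt (am2 (ex K M i) n i S (pie K n g i S.τ)).toReal else 0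

open Classical in
/-- amplitude of a sum of children -/
noncomputable def AR (K M n : ℕ) (g : Z2 → E3 → ℂ) (i : ℕ) (S : Nd) (G : Finset Z2) : ℝ :=
  if Rg K n i S ∧ Cap n i S.τ then Real.sqrt (am2 (ex K M i) n i S (fun z => ∑ τ' ∈ G, pie K n g (i + 1) τ' z)).toReal else 0

section

variable {C0 : ℝ} {K M n : ℕ} {Q : Set (Fin 2 → ℝ)} {h : (Fin 2 → ℝ) → ℝ} {v : (Fin 2 → ℝ) → Fin 2 → ℝ} {g : Z2 → E3 → ℂ}

theorem aR_nonneg (i : ℕ) (S : Nd) : 0 ≤ aR K M n g i S := by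
  unfold aR; split_ifs; exacts [Real.sqrt_nonneg _, le_rfl]

theorem AR_nonneg (i : ℕ) (S : Nd) (G : Finset Z2) : 0 ≤ AR K M n g i S G := by
  unfold AR; split_ifs; exacts [Real.sqrt_nonneg _, le_rfl]

theorem sum_bdd (i : ℕ) (G : Finset Z2) : ∃ B : ℝ, ∀ z, ‖∑ τ' ∈ G, pie K n g i τ' z‖ ≤ B := by
  choose B hB using fun τ' => pie_bdd (K := K) (n := n) g i τ'
  exact ⟨∑ τ' ∈ G, B τ', fun z => (norm_sum_le _ _).trans (Finset.sum_le_sum fun τ' _ => hB τ' z)⟩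

theorem fin_pie (hWI : StWI) (hM : 4 ≤ M) (i j : ℕ) (S : Nd) (τ : Z2) : am2 (ex K M i) n i S (pie K n g j τ) < ⊤ := by
  obtain ⟨B, hB⟩ := pie_bdd (K := K) (n := n) g j τ
  exact am2_lt_top hWI (by unfold ex; omega) n i S hB

theorem fin_sum (hWI : StWI) (hM : 4 ≤ M) (i j : ℕ) (S : Nd) (G : Finset Z2) :
    am2 (ex K M i) n i S (fun z => ∑ τ' ∈ G, pie K n g j τ' z) < ⊤ := by
  obtain ⟨B, hB⟩ := sum_bdd (K := K) (n := n) (g := g) j G
  exact am2_lt_top hWI (by unfold ex; omega) n i S hB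

theorem meas_pie (hg : ∀ θ, Integrable (g θ)) (i : ℕ) (τ : Z2) : Measurable (pie K n g i τ) := (continuous_pie hg i τ).measurable

theorem meas_sum (hg : ∀ θ, Integrable (g θ)) (i : ℕ) (G : Finset Z2) : Measurable fun z => ∑ τ' ∈ G, pie K n g i τ' z :=
  Finset.measurable_fun_sum _ fun τ' _ => meas_pie hg i τ'

theorem AR_sq (i : ℕ) (S : Nd) (G : Finset Z2) (hR : Rg K n i S) (hc : Cap n i S.τ) :
    AR K M n g i S G ^ 2 = (am2 (ex K M i) n i S (fun z => ∑ τ' ∈ G, pie K n g (i + 1) τ' z)).toReal := by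
  unfold AR
  rw [if_pos ⟨hR, hc⟩, Real.sq_sqrt ENNReal.toReal_nonneg]

theorem aR_sq (i : ℕ) (S : Nd) (hR : Rg K n i S) (hc : Cap n i S.τ) :
    aR K M n g i S ^ 2 = (am2 (ex K M i) n i S (pie K n g i S.τ)).toReal := by
  unfold aR
  rw [if_pos ⟨hR, hc⟩, Real.sq_sqrt ENNReal.toReal_nonneg]

/-- common form of B1 and B2 -/
theorem B_aux (hWI : StWI) (hM : 4 ≤ M) {i : ℕ} (hi : i < K) {σ : Nd} {G : Finset Z2} (hc : Cap n i σ.τ) (hG : G ⊆ kids n σ.τ)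
    {U : Finset Nd} (hU : ∀ S ∈ U, S.sg n = σ) {X : ℝ} (hX : 0 ≤ X)
    (H : ∑ S ∈ U, am2 (ex K M i) n i S (fun z => ∑ τ' ∈ G, pie K n g (i + 1) τ' z) ≤
      ENNReal.ofReal X * ∑ τ' ∈ G, am2 (ex K M (i + 1)) n (i + 1) (σ.ch (slp n) n i τ') (pie K n g (i + 1) τ')) :
    ∑ S ∈ U, AR K M n g i S G ^ 2 ≤ X * ∑ τ' ∈ G, aR K M n g (i + 1) (σ.ch (slp n) n i τ') ^ 2 := by
  classical
  by_cases hex : ∃ S0 ∈ U, Rg K n i S0
  swap
  · push Not at hex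
    rw [Finset.sum_eq_zero]
    · exact mul_nonneg hX (Finset.sum_nonneg fun _ _ => sq_nonneg _)
    · intro S hS
      unfold AR
      rw [if_neg (fun hh => hex S hS hh.1)]
      ring
  obtain ⟨S0, hS0, hR0⟩ := hex
  have hτ : ∀ S ∈ U, S.τ = σ.τ := fun S hS => by rw [← hU S hS]; rfl
  have hch : ∀ τ' ∈ G, Rg K n (i + 1) (σ.ch (slp n) n i τ') ∧ Cap n (i + 1) (σ.ch (slp n) n i τ').τ := by
    intro τ' hτ'
    have h1 := rg_ch hi hR0 (by rw [hτ S0 hS0]; exact hc) (τ' := τ') (by rw [hτ S0 hS0]; exact hG hτ')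
    rw [hU S0 hS0] at h1
    exact ⟨h1, cap_kids hc (hG hτ')⟩
  have hfin : ∀ S ∈ U, am2 (ex K M i) n i S (fun z => ∑ τ' ∈ G, pie K n g (i + 1) τ' z) ≠ ⊤ := fun S _ =>
    (fin_sum hWI hM i (i + 1) S G).ne
  have hfin' : ∀ τ' ∈ G, am2 (ex K M (i + 1)) n (i + 1) (σ.ch (slp n) n i τ') (pie K n g (i + 1) τ') ≠ ⊤ := fun τ' _ =>
    (fin_pie hWI hM (i + 1) (i + 1) _ τ').ne
  calc ∑ S ∈ U, AR K M n g i S G ^ 2
      ≤ ∑ S ∈ U, (am2 (ex K M i) n i S (fun z => ∑ τ' ∈ G, pie K n g (i + 1) τ' z)).toReal := by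
        refine Finset.sum_le_sum fun S hS => ?_
        by_cases hR : Rg K n i S
        · rw [AR_sq i S G hR (by rw [hτ S hS]; exact hc)]
        · unfold AR
          rw [if_neg (fun hh => hR hh.1)]
          simp
    _ = (∑ S ∈ U, am2 (ex K M i) n i S (fun z => ∑ τ' ∈ G, pie K n g (i + 1) τ' z)).toReal := (ENNReal.toReal_sum hfin).symm
    _ ≤ (ENNReal.ofReal X * ∑ τ' ∈ G, am2 (ex K M (i + 1)) n (i + 1) (σ.ch (slp n) n i τ') (pie K n g (i + 1) τ')).toReal := by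
        refine ENNReal.toReal_mono ?_ H
        exact ENNReal.mul_ne_top ENNReal.ofReal_ne_top (ENNReal.sum_ne_top.2 hfin')
    _ = X * ∑ τ' ∈ G, aR K M n g (i + 1) (σ.ch (slp n) n i τ') ^ 2 := by
        rw [ENNReal.toReal_mul, ENNReal.toReal_ofReal hX, ENNReal.toReal_sum hfin']
        congr 1
        refine Finset.sum_congr rfl fun τ' hτ' => ?_
        rw [aR_sq (i + 1) _ (hch τ' hτ').1 (hch τ' hτ').2]
        rfl

end

/-- the amplitudes -/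
theorem exists_amp (hWI : StWI) {K M : ℕ} {C0 : ℝ} (hM : 4 ≤ M) {CL C1 C2 C : ℝ} (hL : LemL K M C0 CL)
    (h1 : LemB1 K M C0 C1) (h2 : LemB2 K M C0 C2) (hCL : 0 ≤ CL) (hC1 : 0 ≤ C1) (hC2 : 0 ≤ C2)
    (c1 : CL + 1 ≤ C) (c2 : C1 ≤ C) (c3 : C2 ≤ C) (c4 : 1 + 3 * (K:ℝ) ≤ C) {n : ℕ} {Q : Set (Fin 2 → ℝ)} {h : (Fin 2 → ℝ) → ℝ}
    {v : (Fin 2 → ℝ) → Fin 2 → ℝ} {g : Z2 → E3 → ℂ} (hS : Srf C0 Q h v) (hD : Dat C0 K n Q h v g) :
    ∃ F : Amp C n K, F.s = slp n ∧ F.a = aR K M n g ∧ F.A = AR K M n g := by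
  have hC : 1 ≤ C := by linarith
  have hC0 : 0 ≤ C := by linarith
  refine ⟨{ s := slp n, slp := slp_slp hC n K, A := AR K M n g, a := aR K M n g, a0 := aR_nonneg, A0 := AR_nonneg
            kid := ?_, tri := ?_, L1 := ?_, B1 := ?_, B2 := ?_, supp := ?_ }, rfl, rfl, rfl⟩
  · -- kid
    intro i S hi hc
    have e : pie K n g i S.τ = fun z => ∑ τ' ∈ kids n S.τ, pie K n g (i + 1) τ' z := by
      funext z; exact pie_kids hi g S.τ z
    unfold aR AR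
    rw [e]
  · -- tri
    intro i S G G' hi hGG
    unfold AR
    split_ifs with hR
    · have e : (fun z => ∑ τ' ∈ G ∪ G', pie K n g (i + 1) τ' z) =
          fun z => (fun z => ∑ τ' ∈ G, pie K n g (i + 1) τ' z) z + (fun z => ∑ τ' ∈ G', pie K n g (i + 1) τ' z) z := by
        funext z
        exact Finset.sum_union hGG
      rw [e]
      exact sqrt_am2_add (meas_sum hD.int (i + 1) G) (meas_sum hD.int (i + 1) G') (fin_sum hWI hM i (i + 1) S G)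
        (fin_sum hWI hM i (i + 1) S G')
    · simp
  · -- L1
    intro i S G hi hc hG
    by_cases hR : Rg K n i S
    swap
    · have : AR K M n g i S G = 0 := by unfold AR; rw [if_neg (fun hh => hR hh.1)]
      rw [this]
      exact mul_nonneg hC0 (Finset.sum_nonneg fun _ _ => aR_nonneg _ _)
    have e1 : AR K M n g i S G ≤ ∑ τ' ∈ G, Real.sqrt (am2 (ex K M i) n i S (pie K n g (i + 1) τ')).toReal := by
      unfold AR
      rw [if_pos ⟨hR, hc⟩]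
      exact sqrt_am2_sum G (fun τ' _ => meas_pie hD.int (i + 1) τ') (fun τ' _ => fin_pie hWI hM i (i + 1) S τ')
    refine e1.trans ?_
    rw [Finset.mul_sum]
    refine Finset.sum_le_sum fun τ' hτ' => ?_
    have hch := rg_ch hi hR hc (hG hτ')
    have hcc : Cap n (i + 1) τ' := cap_kids hc (hG hτ')
    have e2 := hL n Q h v g hS hD i hi S τ' hc (hG hτ')
    have e3 : (am2 (ex K M i) n i S (pie K n g (i + 1) τ')).toReal ≤
        CL * aR K M n g (i + 1) ((S.sg n).ch (slp n) n i τ') ^ 2 := by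
      rw [aR_sq (i + 1) _ hch hcc]
      have := ENNReal.toReal_mono (ENNReal.mul_ne_top ENNReal.ofReal_ne_top
        (fin_pie hWI hM (i + 1) (i + 1) ((S.sg n).ch (slp n) n i τ') τ').ne) e2
      rw [ENNReal.toReal_mul, ENNReal.toReal_ofReal hCL] at this
      exact this
    have e4 : Real.sqrt CL ≤ C := by
      rw [Real.sqrt_le_left (by linarith)]
      nlinarith
    calc Real.sqrt (am2 (ex K M i) n i S (pie K n g (i + 1) τ')).toReal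
        ≤ Real.sqrt (CL * aR K M n g (i + 1) ((S.sg n).ch (slp n) n i τ') ^ 2) := Real.sqrt_le_sqrt e3
      _ = Real.sqrt CL * aR K M n g (i + 1) ((S.sg n).ch (slp n) n i τ') := by
          rw [Real.sqrt_mul hCL, Real.sqrt_sq (aR_nonneg _ _)]
      _ ≤ C * aR K M n g (i + 1) ((S.sg n).ch (slp n) n i τ') := mul_le_mul_of_nonneg_right e4 (aR_nonneg _ _)
  · -- B1
    intro i σ G hi hc hG U hU
    have H := h1 n Q h v g hS hD i hi σ G hc hG U hU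
    have := B_aux hWI hM hi hc hG hU (by positivity) H
    refine this.trans (mul_le_mul_of_nonneg_right ?_ (Finset.sum_nonneg fun _ _ => sq_nonneg _))
    exact mul_le_mul_of_nonneg_right c2 (by positivity)
  · -- B2
    intro i τ θ hi0 hi hc
    obtain ⟨ψ, p1, p2, p3, p4⟩ := h2 n Q h v g hS hD i τ θ hi0 hi hc
    refine ⟨ψ, p1.trans c3, p2.trans c3, fun τ' hτ' τ'' hτ'' => (p3 τ' hτ' τ'' hτ'').trans ?_, ?_⟩
    · exact mul_le_mul_of_nonneg_right c3 (by positivity)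
    · intro σ G k hσ hG hk U r hU
      subst hσ
      have H := p4 σ G k rfl hG hk U r hU
      have := B_aux hWI hM hi hc hG (fun S hS => (hU S hS).1) (by positivity) H
      refine this.trans (mul_le_mul_of_nonneg_right ?_ (Finset.sum_nonneg fun _ _ => sq_nonneg _))
      exact mul_le_mul_of_nonneg_right (mul_le_mul_of_nonneg_right c3 (by positivity)) (by positivity)
  · -- supp
    intro S hne
    have hh : Rg K n K S ∧ Cap n K S.τ := by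
      by_contra hcon
      exact hne (by unfold aR; rw [if_neg hcon])
    obtain ⟨t1, t2⟩ := rg_top hh.1
    refine ⟨t1, hh.2, fun k => (t2 k).trans ?_⟩
    exact mul_le_mul_of_nonneg_right c4 (by positivity)

end Vale.Agent.P122.AN
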