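import Vale.Agent.P122.H466.Amp

/-! # P122 / H466 : `StAMP` from the lemmas -/

open MeasureTheory Complex Set Vale.Agent.P122.C2
open scoped ENNReal NNReal FourierTransform RealInnerProductSpace

namespace Vale.Agent.P122.AN

theorem bp0 (n : ℕ) (x : Nd) : bp n 0 x 0 = x.o 0 ∧ bp n 0 x 1 = x.o 1 ∧ bp n 0 x 2 = x.T := by
  unfold bp
  simp

theorem gau_cube {n : ℕ} {x : Nd} (hx : x.τ = 0) {z : E3} (hz : z ∈ cube x) :
    gau 0 (2 ^ (0 * n)) (2 ^ (0 * n)) (2 ^ (2 * 0 * n)) (slp n 0 x.τ) (z - bp n 0 x) ≤ 3 := by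
  obtain ⟨b0, b1, b2⟩ := bp0 n x
  have e0 : (z - bp n 0 x) 0 = z 0 - x.o 0 := by rw [← b0]; rfl
  have e1 : (z - bp n 0 x) 1 = z 1 - x.o 1 := by rw [← b1]; rfl
  have e2 : (z - bp n 0 x) 2 = z 2 - x.T := by rw [← b2]; rfl
  obtain ⟨⟨h1, h2⟩, ⟨h3, h4⟩, h5, h6⟩ := hz
  have es : ∀ k, slp n 0 x.τ k = 0 := by intro k; unfold slp; rw [hx]; simp
  have f1 : |fw 0 (dv (slp n 0 x.τ) (z - bp n 0 x))| ≤ 1 := by
    unfold fw dv
    simp only [Matrix.cons_val_zero, Matrix.cons_val_one, es, e0, e1, Real.cos_zero, Real.sin_zero]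
    rw [abs_le]; constructor <;> linarith
  have f2 : |fn 0 (dv (slp n 0 x.τ) (z - bp n 0 x))| ≤ 1 := by
    unfold fn dv
    simp only [Matrix.cons_val_zero, Matrix.cons_val_one, es, e0, e1, Real.cos_zero, Real.sin_zero]
    rw [abs_le]; constructor <;> linarith
  have f3 : |(z - bp n 0 x) 2| ≤ 1 := by rw [e2, abs_le]; constructor <;> linarith
  unfold gau
  simp only [Nat.zero_mul, Nat.mul_zero, pow_zero, div_one]
  linarith

theorem cube_sub (n : ℕ) (x : Nd) : cube x ⊆ Metric.closedBall (bp n 0 x) 2 := by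
  intro z hz
  obtain ⟨b0, b1, b2⟩ := bp0 n x
  obtain ⟨⟨h1, h2⟩, ⟨h3, h4⟩, h5, h6⟩ := hz
  rw [Metric.mem_closedBall, EuclideanSpace.dist_eq, Fin.sum_univ_three, Real.sqrt_le_left (by norm_num), b0, b1, b2]
  have a1 : dist (z 0) (x.o 0 : ℝ) ^ 2 ≤ 1 := by
    rw [Real.dist_eq, sq_abs]; nlinarith
  have a2 : dist (z 1) (x.o 1 : ℝ) ^ 2 ≤ 1 := by
    rw [Real.dist_eq, sq_abs]; nlinarith
  have a3 : dist (z 2) (x.T : ℝ) ^ 2 ≤ 1 := by
    rw [Real.dist_eq, sq_abs]; nlinarith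
  linarith

/-- volume bound of the unit cubes -/
noncomputable def vB : ℝ := (volume (Metric.closedBall (0 : E3) 2)).toReal

theorem vol_cube (x : Nd) : volume (cube x) ≤ ENNReal.ofReal vB := by
  refine (measure_mono (cube_sub 0 x)).trans ?_
  rw [Measure.addHaar_closedBall_center volume (bp 0 0 x) 2]
  unfold vB
  rw [ENNReal.ofReal_toReal]
  exact measure_closedBall_lt_top.ne

theorem cube_est {K M : ℕ} {C0 C : ℝ} (hC : 0 ≤ C) (hPT : PT K (ex K M 0) C0 C) (hWI : StWI) (hM : 4 ≤ M)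
    {n : ℕ} {Q : Set (Fin 2 → ℝ)} {h : (Fin 2 → ℝ) → ℝ} {v : (Fin 2 → ℝ) → Fin 2 → ℝ} {g : Z2 → E3 → ℂ}
    (hS : Srf C0 Q h v) (hD : Dat C0 K n Q h v g) {x : Nd} (hx : x.τ = 0) (hR : Rg K n 0 x) :
    ∫⁻ z in cube x, ‖pie K n g 0 0 z‖ₑ ^ 3 ≤
      ENNReal.ofReal ((C * 4 ^ (ex K M 0) + 1) ^ 2 * vB * aR K M n g 0 x ^ 3) := by
  have hcap : Cap n 0 x.τ := by
    intro k
    rw [hx]
    simp
  set A := aR K M n g 0 x with hA
  have hA0 : 0 ≤ A := aR_nonneg _ _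
  have hfin := fin_pie (g := g) (n := n) (K := K) hWI hM 0 0 x x.τ
  have hA2 : am2 (ex K M 0) n 0 x (pie K n g 0 x.τ) = ENNReal.ofReal (A ^ 2) := by
    rw [hA, aR_sq 0 x hR hcap, ENNReal.ofReal_toReal hfin.ne]
  set D := C * 4 ^ (ex K M 0) with hDd
  have hD0 : 0 ≤ D := by positivity
  have key : ∀ z ∈ cube x, ‖pie K n g 0 0 z‖ₑ ^ 3 ≤ ENNReal.ofReal ((D + 1) ^ 2 * A ^ 3) := by
    intro z hz
    have h1 := hPT n Q h v g hS hD 0 (Nat.zero_le K) x z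
    have h2 : ‖pie K n g 0 0 z‖ₑ ^ 2 ≤ ENNReal.ofReal (D * A ^ 2) := by
      rw [hx] at h1
      rw [hx] at hA2
      refine h1.trans ?_
      rw [hA2, ← ENNReal.ofReal_mul' (by positivity)]
      refine ENNReal.ofReal_le_ofReal (mul_le_mul_of_nonneg_right ?_ (by positivity))
      rw [hDd]
      refine mul_le_mul_of_nonneg_left (pow_le_pow_left₀ ?_ ?_ _) hC
      · have := gau_nonneg (θ := 0) (s := slp n 0 0) (ρ1 := 2 ^ (0 * n)) (ρ2 := 2 ^ (0 * n)) (ρ3 := 2 ^ (2 * 0 * n))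
          (by positivity) (by positivity) (by positivity) (z - bp n 0 x)
        linarith
      · have := gau_cube (n := n) hx hz
        rw [hx] at this
        linarith
    have h3 : ‖pie K n g 0 0 z‖ ^ 2 ≤ D * A ^ 2 := by
      have e : ‖pie K n g 0 0 z‖ₑ ^ 2 = ENNReal.ofReal (‖pie K n g 0 0 z‖ ^ 2) := by
        rw [ENNReal.ofReal_pow (norm_nonneg _), ofReal_norm]
      rw [e] at h2
      exact (ENNReal.ofReal_le_ofReal_iff (by positivity)).1 h2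
    have h4 : ‖pie K n g 0 0 z‖ ≤ (D + 1) * A := by
      refine (sq_le_sq₀ (norm_nonneg _) (by positivity)).1 (h3.trans ?_)
      nlinarith [sq_nonneg A, mul_nonneg hD0 (sq_nonneg A), mul_nonneg (mul_nonneg hD0 hD0) (sq_nonneg A)]
    have h5 : ‖pie K n g 0 0 z‖ ^ 3 ≤ (D + 1) ^ 2 * A ^ 3 := by
      calc ‖pie K n g 0 0 z‖ ^ 3 = ‖pie K n g 0 0 z‖ ^ 2 * ‖pie K n g 0 0 z‖ := by ring
        _ ≤ (D * A ^ 2) * ((D + 1) * A) := mul_le_mul h3 h4 (norm_nonneg _) (by positivity)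
        _ ≤ (D + 1) ^ 2 * A ^ 3 := by
          have : 0 ≤ A ^ 3 := by positivity
          nlinarith
    have e : ‖pie K n g 0 0 z‖ₑ ^ 3 = ENNReal.ofReal (‖pie K n g 0 0 z‖ ^ 3) := by
      rw [ENNReal.ofReal_pow (norm_nonneg _), ofReal_norm]
    rw [e]
    exact ENNReal.ofReal_le_ofReal h5
  calc ∫⁻ z in cube x, ‖pie K n g 0 0 z‖ₑ ^ 3 ≤ ∫⁻ z in cube x, ENNReal.ofReal ((D + 1) ^ 2 * A ^ 3) :=
        setLIntegral_mono measurable_const key
    _ = ENNReal.ofReal ((D + 1) ^ 2 * A ^ 3) * volume (cube x) := by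
        rw [setLIntegral_const]
    _ ≤ ENNReal.ofReal ((D + 1) ^ 2 * A ^ 3) * ENNReal.ofReal vB := mul_le_mul_right (vol_cube x) _
    _ = ENNReal.ofReal ((D + 1) ^ 2 * vB * A ^ 3) := by
        rw [← ENNReal.ofReal_mul (by positivity)]
        congr 1; ring

/-- **[AMP]** -/
theorem stAMP_of (hREP : StREP) (hWI : StWI) (hL : ∀ (K M : ℕ) (C0 : ℝ), 4 ≤ M → 1 ≤ C0 → ∃ C : ℝ, 0 ≤ C ∧ LemL K M C0 C)
    (h1 : ∀ (K M : ℕ) (C0 : ℝ), 4 ≤ M → 1 ≤ C0 → ∃ C : ℝ, 0 ≤ C ∧ LemB1 K M C0 C)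
    (h2 : ∀ (K M : ℕ) (C0 : ℝ), 4 ≤ M → 1 ≤ C0 → ∃ C : ℝ, 0 ≤ C ∧ LemB2 K M C0 C) : StAMP := by
  intro K M C0 hK hC0
  have hM : 4 ≤ M + 4 := by omega
  obtain ⟨CL, hCL, hL⟩ := hL K (M + 4) C0 hM hC0
  obtain ⟨C1, hC1, h1⟩ := h1 K (M + 4) C0 hM hC0
  obtain ⟨C2, hC2, h2⟩ := h2 K (M + 4) C0 hM hC0
  obtain ⟨Cp, hCp, hPT⟩ := pt_of_rep hREP K (ex K (M + 4) 0) hC0
  set C3 := (Cp * 4 ^ (ex K (M + 4) 0) + 1) ^ 2 * vB with hC3
  have hvB : 0 ≤ vB := ENNReal.toReal_nonneg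
  have hC30 : 0 ≤ C3 := by positivity
  have hK0 : (0:ℝ) ≤ 3 * K := by positivity
  refine ⟨CL + C1 + C2 + 1 + 3 * K + C3, by linarith, ?_⟩
  intro n Q h v g hS hD
  obtain ⟨F, hFs, hFa, -⟩ := exists_amp hWI (C := CL + C1 + C2 + 1 + 3 * K + C3) hM hL h1 h2 hCL hC1 hC2
    (by linarith) (by linarith) (by linarith) (by linarith) hS hD
  refine ⟨F, hFs, ?_, ?_⟩
  · intro x hx hT0 hT1 ho
    rw [hFa]
    have hR : Rg K n 0 x := by
      refine ⟨hT0, by rw [Nat.sub_zero]; exact hT1, fun k => ?_⟩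
      have := ho k
      rw [Nat.sub_zero]
      simpa using this
    refine (cube_est hCp hPT hWI hM hS hD hx hR).trans (ENNReal.ofReal_le_ofReal ?_)
    rw [← hC3]
    refine mul_le_mul_of_nonneg_right ?_ (pow_nonneg (aR_nonneg _ _) 3)
    linarith
  · intro S
    rw [hFa]
    by_cases hR : Rg K n K S ∧ Cap n K S.τ
    · rw [aR_sq K S hR.1 hR.2, ENNReal.ofReal_toReal (fin_pie hWI hM K K S S.τ).ne]
      have e : ex K (M + 4) K = M + 4 := by unfold ex; simp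
      rw [e]
      have h3 : am2 (M + 4) n K S (pie K n g K S.τ) ≤ am2 M n K S (pie K n g K S.τ) := by
        unfold am2
        refine mul_le_mul_right (lintegral_mono fun z => mul_le_mul_right ?_ _) _
        unfold wN
        exact wg_anti (by positivity) (by positivity) (by positivity) (by omega) _
      refine h3.trans ?_
      conv_lhs => rw [← one_mul (am2 M n K S (pie K n g K S.τ))]
      refine mul_le_mul_left ?_ _
      rw [ENNReal.one_le_ofReal]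
      linarith
    · have : aR K (M + 4) n g K S = 0 := by unfold aR; rw [if_neg hR]
      rw [this]
      simp

end Vale.Agent.P122.AN
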