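import Vale.Agent.P122.H466.Loc

/-! # P122 / H466 : the amplitude is a norm; finiteness -/

open MeasureTheory Complex Set Vale.Agent.P122.C2
open scoped ENNReal NNReal FourierTransform RealInnerProductSpace

namespace Vale.Agent.P122.AN

/-- the measure of the tube `S` -/
noncomputable def mu (M n i : ℕ) (S : Nd) : Measure E3 :=
  ENNReal.ofReal (((2:ℝ) ^ (4 * i * n))⁻¹) • (volume : Measure E3).withDensity (wN M n i S)

theorem measurable_wN (M n i : ℕ) (S : Nd) : Measurable (wN M n i S) := by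
  unfold wN
  exact (measurable_wg M).comp (measurable_id.sub_const _)

theorem am2_eq (M n i : ℕ) (S : Nd) {f : E3 → ℂ} (hf : Measurable f) :
    am2 M n i S f = ∫⁻ z, ‖f z‖ₑ ^ 2 ∂(mu M n i S) := by
  unfold am2 mu
  rw [lintegral_smul_measure, lintegral_withDensity_eq_lintegral_mul _ (measurable_wN M n i S) (by fun_prop), smul_eq_mul]
  congr 1
  refine lintegral_congr fun z => ?_
  rw [Pi.mul_apply, mul_comm]

theorem sqrt_am2 (M n i : ℕ) (S : Nd) {f : E3 → ℂ} (hf : Measurable f) :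
    Real.sqrt (am2 M n i S f).toReal = (eLpNorm f 2 (mu M n i S)).toReal := by
  rw [eLpNorm_eq_lintegral_rpow_enorm_toReal (by norm_num) (by norm_num)]
  rw [← ENNReal.toReal_rpow, Real.sqrt_eq_rpow, am2_eq M n i S hf]
  norm_num

/-- boundedness of the pieces -/
theorem pie_bdd {K n : ℕ} (g : Z2 → E3 → ℂ) (i : ℕ) (τ : Z2) : ∃ B : ℝ, ∀ z, ‖pie K n g i τ z‖ ≤ B := by
  refine ⟨∑ θ ∈ desc K n i τ, ∫ v, ‖g θ v‖, fun z => ?_⟩
  unfold pie
  exact (norm_sum_le _ _).trans (Finset.sum_le_sum fun θ _ => norm_inv_le _ _)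

theorem lint_wN_lt (hWI : StWI) {M : ℕ} (hM : 4 ≤ M) (n i : ℕ) (S : Nd) : ∫⁻ z, wN M n i S z < ⊤ := by
  obtain ⟨C, -, h⟩ := hWI
  refine lt_of_le_of_lt (h M 0 (2 ^ (i * n)) (2 ^ (i * n)) (2 ^ (2 * i * n)) (slp n i S.τ) (bp n i S) hM
    (by positivity) (by positivity) (by positivity)) ENNReal.ofReal_lt_top

theorem am2_lt_top (hWI : StWI) {M : ℕ} (hM : 4 ≤ M) (n i : ℕ) (S : Nd) {f : E3 → ℂ} {B : ℝ} (hB : ∀ z, ‖f z‖ ≤ B) :
    am2 M n i S f < ⊤ := by
  unfold am2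
  refine ENNReal.mul_lt_top ENNReal.ofReal_lt_top ?_
  calc ∫⁻ z, ‖f z‖ₑ ^ 2 * wN M n i S z ≤ ∫⁻ z, ENNReal.ofReal B ^ 2 * wN M n i S z := by
        refine lintegral_mono fun z => mul_le_mul_left ?_ _
        refine pow_le_pow_left' ?_ 2
        rw [← ofReal_norm]
        exact ENNReal.ofReal_le_ofReal (hB z)
    _ = ENNReal.ofReal B ^ 2 * ∫⁻ z, wN M n i S z := lintegral_const_mul _ (measurable_wN M n i S)
    _ < ⊤ := ENNReal.mul_lt_top (ENNReal.pow_lt_top ENNReal.ofReal_lt_top) (lint_wN_lt hWI hM n i S)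

theorem eLp_lt_top {M n i : ℕ} {S : Nd} {f : E3 → ℂ} (hf : Measurable f) (h : am2 M n i S f < ⊤) :
    eLpNorm f 2 (mu M n i S) < ⊤ := by
  rw [eLpNorm_eq_lintegral_rpow_enorm_toReal (by norm_num) (by norm_num)]
  refine ENNReal.rpow_lt_top_of_nonneg (by norm_num) ?_
  rw [am2_eq M n i S hf] at h
  refine ne_of_lt ?_
  convert h using 2
  norm_num

/-- triangle inequality -/
theorem sqrt_am2_add {M n i : ℕ} {S : Nd} {f g : E3 → ℂ} (hf : Measurable f) (hg : Measurable g)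
    (hf' : am2 M n i S f < ⊤) (hg' : am2 M n i S g < ⊤) :
    Real.sqrt (am2 M n i S (fun z => f z + g z)).toReal ≤ Real.sqrt (am2 M n i S f).toReal + Real.sqrt (am2 M n i S g).toReal := by
  have hfg : Measurable fun z => f z + g z := hf.add hg
  rw [sqrt_am2 M n i S hfg, sqrt_am2 M n i S hf, sqrt_am2 M n i S hg]
  have h1 := eLp_lt_top hf hf'
  have h2 := eLp_lt_top hg hg'
  rw [← ENNReal.toReal_add h1.ne h2.ne]
  refine ENNReal.toReal_mono (ENNReal.add_lt_top.2 ⟨h1, h2⟩).ne ?_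
  exact eLpNorm_add_le hf.aestronglyMeasurable hg.aestronglyMeasurable (by norm_num)

theorem sqrt_am2_sum {M n i : ℕ} {S : Nd} {ι : Type*} (I : Finset ι) {f : ι → E3 → ℂ} (hf : ∀ k ∈ I, Measurable (f k))
    (hf' : ∀ k ∈ I, am2 M n i S (f k) < ⊤) :
    Real.sqrt (am2 M n i S (fun z => ∑ k ∈ I, f k z)).toReal ≤ ∑ k ∈ I, Real.sqrt (am2 M n i S (f k)).toReal := by
  have hm : Measurable fun z => ∑ k ∈ I, f k z := Finset.measurable_fun_sum _ hf
  rw [sqrt_am2 M n i S hm]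
  have h1 : ∀ k ∈ I, Real.sqrt (am2 M n i S (f k)).toReal = (eLpNorm (f k) 2 (mu M n i S)).toReal := fun k hk =>
    sqrt_am2 M n i S (hf k hk)
  rw [Finset.sum_congr rfl h1, ← ENNReal.toReal_sum (fun k hk => (eLp_lt_top (hf k hk) (hf' k hk)).ne)]
  refine ENNReal.toReal_mono ?_ ?_
  · exact (ENNReal.sum_lt_top.2 fun k hk => eLp_lt_top (hf k hk) (hf' k hk)).ne
  · have e : (fun z => ∑ k ∈ I, f k z) = ∑ k ∈ I, f k := by funext z; simp
    rw [e]
    exact eLpNorm_sum_le (fun k hk => (hf k hk).aestronglyMeasurable) (by norm_num)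

end Vale.Agent.P122.AN
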