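import Vale.Agent.P122.H466.Gau

/-! # P122 / H466 : the pieces of the caps, their Fourier supports -/

open MeasureTheory Complex Set Vale.Agent.P122.C2
open scoped ENNReal NNReal FourierTransform RealInnerProductSpace

namespace Vale.Agent.P122.AN

theorem mem_kids {n : ℕ} {τ τ' : Z2} : τ' ∈ kids n τ ↔ ∀ k, τ' k / 2 ^ n = τ k := by
  unfold kids
  rw [Fintype.mem_piFinset]
  refine forall_congr' fun k => ?_
  rw [Finset.mem_Ico]
  have h2 : (0:ℤ) < 2 ^ n := by positivity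
  constructor
  · rintro ⟨h1, h3⟩
    refine le_antisymm ?_ ?_
    · have : τ' k / 2 ^ n < τ k + 1 := Int.ediv_lt_of_lt_mul h2 (by linarith [mul_comm (τ k + 1) ((2:ℤ) ^ n)])
      linarith
    · exact (Int.le_ediv_iff_mul_le h2).2 (by linarith [mul_comm (τ k) ((2:ℤ) ^ n)])
  · intro h
    constructor
    · have := (Int.le_ediv_iff_mul_le h2).1 h.ge
      linarith [mul_comm (τ k) ((2:ℤ) ^ n)]
    · have := Int.lt_mul_of_ediv_lt h2 (show τ' k / 2 ^ n < τ k + 1 by linarith)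
      linarith [mul_comm (τ k + 1) ((2:ℤ) ^ n)]

theorem mem_desc {K n i : ℕ} {τ θ : Z2} : θ ∈ desc K n i τ ↔ ∀ k, θ k / 2 ^ ((K - i) * n) = τ k := by
  have : desc K n i τ = kids ((K - i) * n) τ := rfl
  rw [this, mem_kids]

theorem desc_top {K n : ℕ} {τ : Z2} : desc K n K τ = {τ} := by
  ext θ
  rw [mem_desc, Finset.mem_singleton, Nat.sub_self, Nat.zero_mul, pow_zero]
  simp only [Int.ediv_one]
  exact ⟨fun h => funext h, fun h k => by rw [h]⟩

theorem desc_succ {K n i : ℕ} (hi : i < K) {τ θ : Z2} :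
    θ ∈ desc K n i τ ↔ (fun k => θ k / 2 ^ ((K - (i + 1)) * n)) ∈ kids n τ := by
  rw [mem_desc, mem_kids]
  refine forall_congr' fun k => ?_
  have e : (2:ℤ) ^ ((K - i) * n) = 2 ^ ((K - (i + 1)) * n) * 2 ^ n := by
    rw [← pow_add]
    congr 1
    have : K - i = (K - (i + 1)) + 1 := by omega
    rw [this]; ring
  rw [e, ← Int.ediv_ediv_of_nonneg (by positivity)]

theorem sum_desc {M' : Type*} [AddCommMonoid M'] {K n i : ℕ} (hi : i < K) (τ : Z2) (f : Z2 → M') :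
    ∑ θ ∈ desc K n i τ, f θ = ∑ τ' ∈ kids n τ, ∑ θ ∈ desc K n (i + 1) τ', f θ := by
  classical
  rw [← Finset.sum_fiberwise_of_maps_to (s := desc K n i τ) (t := kids n τ)
    (g := fun θ k => θ k / 2 ^ ((K - (i + 1)) * n)) (fun θ hθ => (desc_succ hi).1 hθ)]
  refine Finset.sum_congr rfl fun τ' hτ' => Finset.sum_congr ?_ fun _ _ => rfl
  ext θ
  rw [Finset.mem_filter]
  constructor
  · rintro ⟨-, h⟩
    exact mem_desc.2 fun k => congrFun h k
  · intro h
    have e : (fun k => θ k / 2 ^ ((K - (i + 1)) * n)) = τ' := funext (mem_desc.1 h)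
    exact ⟨(desc_succ hi).2 (by rw [e]; exact hτ'), e⟩

theorem pie_kids {K n i : ℕ} (hi : i < K) (g : Z2 → E3 → ℂ) (τ : Z2) (z : E3) :
    pie K n g i τ z = ∑ τ' ∈ kids n τ, pie K n g (i + 1) τ' z := by
  unfold pie
  exact sum_desc hi τ fun θ => 𝓕⁻ (g θ) z

theorem pie_top (K n : ℕ) (g : Z2 → E3 → ℂ) (τ : Z2) (z : E3) : pie K n g K τ z = 𝓕⁻ (g τ) z := by
  unfold pie
  rw [desc_top, Finset.sum_singleton]

/-- sum of the amplitudes below `τ` -/
noncomputable def gs (K n : ℕ) (g : Z2 → E3 → ℂ) (i : ℕ) (τ : Z2) (ξ : E3) : ℂ := ∑ θ ∈ desc K n i τ, g θ ξ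

theorem inv_fsum {ι : Type*} (I : Finset ι) (g : ι → E3 → ℂ) (hg : ∀ k ∈ I, Integrable (g k)) (z : E3) :
    𝓕⁻ (fun ξ => ∑ k ∈ I, g k ξ) z = ∑ k ∈ I, 𝓕⁻ (g k) z := by
  simp_rw [Real.fourierInv_eq]
  have hk : ∀ k ∈ I, Integrable (fun v : E3 => Real.fourierChar (inner ℝ v z) • g k v) := by
    intro k hk
    have h1 : Continuous (fun v : E3 => Real.fourierChar (inner ℝ v z)) := by fun_prop
    have h3 : Continuous (fun v : E3 => ((Real.fourierChar (inner ℝ v z) : Circle) : ℂ)) := by fun_prop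
    exact (hg k hk).bdd_mul (c := 1) h3.aestronglyMeasurable (Filter.Eventually.of_forall fun v => (Circle.norm_coe _).le)
  rw [← integral_finsetSum _ hk]
  congr 1
  ext v
  rw [Finset.smul_sum]

theorem integrable_gs {K n : ℕ} {g : Z2 → E3 → ℂ} (hg : ∀ θ, Integrable (g θ)) (i : ℕ) (τ : Z2) :
    Integrable (gs K n g i τ) := by
  unfold gs
  exact integrable_finsetSum _ fun θ _ => hg θ

theorem inv_gs {K n : ℕ} {g : Z2 → E3 → ℂ} (hg : ∀ θ, Integrable (g θ)) (i : ℕ) (τ : Z2) :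
    𝓕⁻ (gs K n g i τ) = pie K n g i τ := by
  funext z
  unfold gs pie
  exact inv_fsum _ _ (fun k _ => hg k) z

theorem continuous_inv {g : E3 → ℂ} (hg : Integrable g) : Continuous (𝓕⁻ g) := by
  have h : 𝓕⁻ g = fun w => ∫ v, Real.fourierChar (inner ℝ v w) • g v := by
    funext w; exact Real.fourierInv_eq g w
  rw [h]
  refine continuous_of_dominated (bound := fun v => ‖g v‖) ?_ ?_ hg.norm ?_
  · intro w
    have h1 : Continuous (fun v : E3 => ((Real.fourierChar (inner ℝ v w) : Circle) : ℂ)) := by fun_prop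
    exact h1.aestronglyMeasurable.mul hg.1
  · intro w
    filter_upwards with v
    rw [Circle.norm_smul]
  · filter_upwards with v
    have h1 : Continuous (fun w : E3 => ((Real.fourierChar (inner ℝ v w) : Circle) : ℂ)) := by fun_prop
    exact h1.mul continuous_const

theorem norm_inv_le (g : E3 → ℂ) (z : E3) : ‖𝓕⁻ g z‖ ≤ ∫ v, ‖g v‖ := by
  rw [Real.fourierInv_eq]
  refine (norm_integral_le_integral_norm _).trans (le_of_eq ?_)
  congr 1
  ext v
  rw [Circle.norm_smul]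

theorem continuous_pie {K n : ℕ} {g : Z2 → E3 → ℂ} (hg : ∀ θ, Integrable (g θ)) (i : ℕ) (τ : Z2) :
    Continuous (pie K n g i τ) := by
  unfold pie
  exact continuous_finsetSum _ fun θ _ => continuous_inv (hg θ)

/-! ## supports -/

section supp

variable {C : ℝ} {K n : ℕ} {Q : Set (Fin 2 → ℝ)} {h : (Fin 2 → ℝ) → ℝ} {v : (Fin 2 → ℝ) → Fin 2 → ℝ} {g : Z2 → E3 → ℂ}

theorem desc_slp {i : ℕ} (hi : i ≤ K) {τ θ : Z2} (hθ : θ ∈ desc K n i τ) (k : Fin 2) :
    0 ≤ (θ k : ℝ) / 2 ^ (K * n) - slp n i τ k ∧ (θ k : ℝ) / 2 ^ (K * n) - slp n i τ k ≤ 1 / 2 ^ (i * n) := by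
  have hk := mem_desc.1 hθ k
  have h2 : (0:ℤ) < 2 ^ ((K - i) * n) := by positivity
  have a1 : 2 ^ ((K - i) * n) * τ k ≤ θ k := by
    have := Int.mul_ediv_self_le (x := θ k) (k := 2 ^ ((K - i) * n)) h2.ne'
    rw [hk] at this; exact this
  have a2 : θ k < 2 ^ ((K - i) * n) * τ k + 2 ^ ((K - i) * n) := by
    have := Int.lt_mul_ediv_self_add (x := θ k) (k := 2 ^ ((K - i) * n)) h2
    rw [hk] at this; exact this
  have b1 : (2:ℝ) ^ ((K - i) * n) * τ k ≤ θ k := by exact_mod_cast a1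
  have b2 : (θ k : ℝ) ≤ 2 ^ ((K - i) * n) * τ k + 2 ^ ((K - i) * n) := by exact_mod_cast a2.le
  have e : (2:ℝ) ^ (K * n) = 2 ^ ((K - i) * n) * 2 ^ (i * n) := by
    rw [← pow_add, ← add_mul, Nat.sub_add_cancel hi]
  have p1 : (0:ℝ) < 2 ^ ((K - i) * n) := by positivity
  have p2 : (0:ℝ) < 2 ^ (i * n) := by positivity
  have e2 : (τ k : ℝ) / 2 ^ (i * n) = (2 ^ ((K - i) * n) * τ k) / 2 ^ (K * n) := by
    rw [e]; field_simp
  unfold slp
  rw [e2, ← sub_div]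
  constructor
  · apply div_nonneg (by linarith) (by positivity)
  · rw [e, div_le_div_iff₀ (by positivity) p2]
    nlinarith

/-- where the pieces below `τ` live -/
theorem gs_supp (hD : Dat C K n Q h v g) {i : ℕ} (hi : i ≤ K) (hC : 0 ≤ C) {τ : Z2} {ξ : E3} (hξ : gs K n g i τ ξ ≠ 0) :
    hz ξ ∈ Q ∧ (∀ k, |v (hz ξ) k - slp n i τ k| ≤ (C + 1) / 2 ^ (i * n)) ∧ |ξ 2 - h (hz ξ)| ≤ C / 2 ^ (2 * i * n) := by
  obtain ⟨θ, hθ, hne⟩ : ∃ θ ∈ desc K n i τ, g θ ξ ≠ 0 := by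
    by_contra hcon
    push Not at hcon
    exact hξ (Finset.sum_eq_zero hcon)
  have p : (2:ℝ) ^ (i * n) ≤ 2 ^ (K * n) := pow_le_pow_right₀ (by norm_num) (Nat.mul_le_mul_right n hi)
  have p' : (2:ℝ) ^ (2 * i * n) ≤ 2 ^ (2 * K * n) :=
    pow_le_pow_right₀ (by norm_num) (Nat.mul_le_mul_right n (Nat.mul_le_mul_left 2 hi))
  refine ⟨hD.dom θ ξ hne, fun k => ?_, (hD.near θ ξ hne).trans ?_⟩
  · have h1 := hD.slope θ ξ hne k
    have h2 := desc_slp (K := K) (n := n) hi hθ k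
    have h3 : C / 2 ^ (K * n) ≤ C / 2 ^ (i * n) := div_le_div_of_nonneg_left hC (by positivity) p
    have e : v (hz ξ) k - slp n i τ k = (v (hz ξ) k - θ k / 2 ^ (K * n)) + ((θ k : ℝ) / 2 ^ (K * n) - slp n i τ k) := by ring
    rw [e]
    refine (abs_add_le _ _).trans ?_
    rw [abs_of_nonneg h2.1, add_div]
    linarith [h2.2]
  · exact div_le_div_of_nonneg_left hC (by positivity) p'

/-- the pieces are zero for indices which are not caps -/
theorem gs_zero (hD : Dat C K n Q h v g) {i : ℕ} (hi : i ≤ K) {τ : Z2} (hτ : ¬ Cap n i τ) (ξ : E3) : gs K n g i τ ξ = 0 := by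
  by_contra hξ
  obtain ⟨θ, hθ, hne⟩ : ∃ θ ∈ desc K n i τ, g θ ξ ≠ 0 := by
    by_contra hcon
    push Not at hcon
    exact hξ (Finset.sum_eq_zero hcon)
  refine hτ fun k => ?_
  obtain ⟨h1, h2⟩ := hD.cell θ ξ hne k
  have hk := mem_desc.1 hθ k
  have e : (2:ℤ) ^ (K * n) = 2 ^ ((K - i) * n) * 2 ^ (i * n) := by
    rw [← pow_add, ← add_mul, Nat.sub_add_cancel hi]
  rw [← hk]
  constructor
  · exact Int.ediv_nonneg h1 (by positivity)
  · refine Int.ediv_lt_of_lt_mul (by positivity) ?_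
    rw [e] at h2
    linarith [mul_comm ((2:ℤ) ^ (i * n)) (2 ^ ((K - i) * n))]

end supp

end Vale.Agent.P122.AN
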